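import Vale.Agent.P031.Collision.OneVar
import Mathlib.Data.Finset.Sort

/-!
# P031 Q2, collisions: encoding a solution by a marked matrix
-/

namespace Vale.Agent.P031.Coll

open Finset

noncomputable section

variable {a b n : ℕ}

/-- A cell of the matrix: rows are the `P i` and `d`, columns the `Q j` and `d'`. -/
abbrev Cel (a b : ℕ) := Option (Fin a) × Option (Fin b)

/-- A condition: a prime of either list. -/
abbrev Cnd (a b : ℕ) := Fin a ⊕ Fin b

/-- The cell lies in the line of the condition. -/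
def mem : Cnd a b → Cel a b → Prop
  | .inl i, q => q.1 = some i
  | .inr j, q => q.2 = some j

instance (x : Cnd a b) (q : Cel a b) : Decidable (mem x q) := by
  cases x <;> exact inferInstanceAs (Decidable (_ = _))

/-- A pattern: the marked cells in increasing order, the mark of each condition, the profiles. -/
structure Pat (a b e n : ℕ) where
  c : Fin n → Cel a b
  top : Cnd a b → Fin n
  cp : Fin a → Fin (e + 1)
  cq : Fin b → Fin (e + 1)
deriving Fintype

/-- The part of the matrix free of the marked primes. -/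
abbrev Cof (a b : ℕ) := Cel a b → ℕ

/-- The value of a line: cofactors times marked primes. -/
def line {e : ℕ} (π : Pat a b e n) (m : Cof a b) (r : Fin n → ℕ) (x : Cnd a b) : ℕ :=
  (∏ q ∈ univ.filter (mem x), m q) * ∏ k ∈ univ.filter (fun k => mem x (π.c k)), r k

/-- The line without its top prime. -/
def coef {e : ℕ} (π : Pat a b e n) (m : Cof a b) (r : Fin n → ℕ) (x : Cnd a b) : ℕ :=
  (∏ q ∈ univ.filter (mem x), m q) *
    ∏ k ∈ univ.filter (fun k => mem x (π.c k) ∧ k ≠ π.top x), r k

/-- The cell bound of a condition. -/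
def Pat.cc {e : ℕ} (π : Pat a b e n) : Cnd a b → ℕ
  | .inl i => π.cp i
  | .inr j => π.cq j

/-- The largest prime factor cell allowed in a row. -/
def rowB {e : ℕ} (π : Pat a b e n) (Zb : ℕ) : Option (Fin a) → ℕ
  | some i => π.cp i
  | none => Zb

/-- The largest prime factor cell allowed in a column. -/
def colB {e : ℕ} (π : Pat a b e n) (Zb : ℕ) : Option (Fin b) → ℕ
  | some j => π.cq j
  | none => Zb

/-- The number of columns reaching the cell `t`. -/
def colN {e : ℕ} (π : Pat a b e n) (Zb t : ℕ) : ℕ := (univ.filter fun l => t ≤ colB π Zb l).card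

/-- The logarithmic column weight. -/
def cw {e : ℕ} (π : Pat a b e n) (Zb t : ℕ) : ℝ := Real.log (max (colN π Zb t) 1 : ℕ)

/-- The weight. -/
def zw {e : ℕ} (π : Pat a b e n) (Zb : ℕ) : ℕ → ℝ := fun t => Real.exp (-cw π Zb t)

/-- The bound on the logarithm of the inverse weight. -/
def ind {e : ℕ} (π : Pat a b e n) (Zb B : ℕ) : ℝ :=
  (∑ j : Fin b, ((∑ t ∈ Finset.Icc 1 (π.cq j : ℕ), cw π Zb t) + cw π Zb 0 * T0 e)) +
    B * cw π Zb 0

/-- Pattern validity, with the inequalities satisfied by its profile. -/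
def Pat.Valid {e : ℕ} (π : Pat a b e n) (D : ℝ) : Prop :=
  (∀ x, mem x (π.c (π.top x))) ∧ (∀ x k, mem x (π.c k) → k ≤ π.top x) ∧
    Function.Surjective π.top ∧ (∀ x, 1 ≤ π.cc x) ∧ Antitone (fun j => (π.cq j : ℕ)) ∧
    (∀ j : Fin b, j.val = 0 → (π.cq j : ℕ) = e) ∧
    (∑ j : Fin b, if 0 < j.val then aC j.val * ((π.cq j : ℕ) : ℝ) else 0) + D ≤
      (e : ℝ) + b * Real.log (b + 1)

/-- The lower bound for the logarithm of the `k`-th marked prime. -/
def Lk {e : ℕ} (π : Pat a b e n) (k : Fin n) : ℝ :=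
  if h : (univ.filter fun x => π.top x ≤ k).Nonempty then
    (univ.filter fun x => π.top x ≤ k).sup' h fun x => gainL (π.cc x) else 1

/-- The cofactor box. -/
def cellBox {e : ℕ} (π : Pat a b e n) (Zb : ℕ) (y : ℝ) (q : Cel a b) : Finset ℕ :=
  (Finset.range (⌊y⌋₊ + 1)).filter fun m =>
    1 ≤ m ∧ ∀ s ∈ m.primeFactors, cell s ≤ min (rowB π Zb q.1) (colB π Zb q.2)

/-- The local condition at a marked prime. -/
def LocalOK {e : ℕ} (π : Pat a b e n) (m : Cof a b) (y : ℝ) (k : Fin n) (r : Fin n → ℕ) : Prop :=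
  (r k).Prime ∧ Lk π k ≤ Real.log (r k) ∧
    (∀ x, π.top x = k → 1 ≤ coef π m r x ∧ ((coef π m r x * r k : ℕ) : ℝ) ≤ y ∧
      (coef π m r x * r k + 1).Prime) ∧
    ∀ x x', π.top x = k → π.top x' = k → x ≠ x' → coef π m r x ≠ coef π m r x'

/-- A good encoding. -/
def Good {e : ℕ} (π : Pat a b e n) (Zb B : ℕ) (y : ℝ) (m : Cof a b) (r : Fin n → ℕ) : Prop :=
  (∀ k, LocalOK π m y k r) ∧ (((∏ q, m q) * ∏ k, r k : ℕ) : ℝ) ≤ y ∧
    1 ≤ Real.exp (ind π Zb B) * ∏ q, wt (zw π Zb) (m q)

/-- Decoding. -/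
def dec {e : ℕ} (π : Pat a b e n) (m : Cof a b) (r : Fin n → ℕ) :
    ((Fin a → ℕ) × (Fin b → ℕ)) × (ℕ × ℕ) :=
  ((fun i => line π m r (.inl i) + 1, fun j => line π m r (.inr j) + 1),
    ((∏ q ∈ univ.filter (fun q : Cel a b => q.1 = none), m q) *
        ∏ k ∈ univ.filter (fun k => (π.c k).1 = none), r k,
      (∏ q ∈ univ.filter (fun q : Cel a b => q.2 = none), m q) *
        ∏ k ∈ univ.filter (fun k => (π.c k).2 = none), r k))

lemma colN_antitone {e : ℕ} (π : Pat a b e n) (Zb : ℕ) : Antitone (colN π Zb) := fun s t h =>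
  Finset.card_le_card fun l hl => by
    simp only [Finset.mem_filter, Finset.mem_univ, true_and] at hl ⊢; omega

lemma cw_antitone {e : ℕ} (π : Pat a b e n) (Zb : ℕ) : Antitone (cw π Zb) := fun s t h => by
  refine Real.log_le_log (by exact_mod_cast (le_max_right _ 1 : 1 ≤ max (colN π Zb t) 1)) ?_
  exact_mod_cast max_le_max (colN_antitone π Zb h) le_rfl

lemma cw_nonneg {e : ℕ} (π : Pat a b e n) (Zb t : ℕ) : 0 ≤ cw π Zb t :=
  Real.log_nonneg (by exact_mod_cast (le_max_right _ 1 : 1 ≤ max (colN π Zb t) 1))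

lemma zw_pos {e : ℕ} (π : Pat a b e n) (Zb t : ℕ) : 0 < zw π Zb t := Real.exp_pos _

lemma zw_le_one {e : ℕ} (π : Pat a b e n) (Zb t : ℕ) : zw π Zb t ≤ 1 :=
  Real.exp_le_one_iff.2 (by linarith [cw_nonneg π Zb t])

lemma wt_le_one {z : ℕ → ℝ} (h0 : ∀ t, 0 ≤ z t) (h : ∀ t, z t ≤ 1) (m : ℕ) : wt z m ≤ 1 := by
  unfold wt
  induction m.primeFactorsList with
  | nil => simp
  | cons s L ih =>
    rw [List.map_cons, List.prod_cons]
    refine mul_le_one₀ (h _) (List.prod_nonneg fun x hx => ?_) ih
    obtain ⟨s, -, rfl⟩ := List.mem_map.1 hx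
    exact h0 _

lemma exists_key {α : Type*} [Fintype α] [DecidableEq α] (v : α → ℕ) :
    ∃ key : α → ℕ, Function.Injective key ∧ ∀ p q, key p ≤ key q → v p ≤ v q := by
  classical
  let N := Fintype.card α
  let idx : α → ℕ := fun q => (Fintype.equivFin α q).val
  refine ⟨fun q => v q * N + idx q, fun p q h => ?_, fun p q h => ?_⟩
  · have hp : idx p < N := (Fintype.equivFin α p).isLt
    have hq : idx q < N := (Fintype.equivFin α q).isLt
    have hN : 0 < N := by omega
    have h1 := congrArg (· % N) h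
    simp only [Nat.mul_add_mod_of_lt hp, Nat.mul_add_mod_of_lt hq] at h1
    exact (Fintype.equivFin α).injective (Fin.ext h1)
  · by_contra hlt
    have hq : idx q < N := (Fintype.equivFin α q).isLt
    have h1 : (v q + 1) * N ≤ v p * N := Nat.mul_le_mul_right N (not_le.1 hlt)
    simp only at h
    rw [add_one_mul] at h1; omega

/-- Every solution is the decoding of a good encoding. -/
theorem exists_encoding {a b Zb B e : ℕ} {y D : ℝ} (hb : 1 ≤ b)
    {t : ((Fin a → ℕ) × (Fin b → ℕ)) × (ℕ × ℕ)} (ht : t ∈ collSet a b Zb B e y D) :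
    ∃ n ≤ a + b, ∃ π : Pat a b e n, π.Valid D ∧ ∃ m : Cof a b, ∃ r : Fin n → ℕ,
      (∀ q, m q ∈ cellBox π Zb y q) ∧ (∀ k, r k ≤ ⌊y⌋₊) ∧ Good π Zb B y m r ∧
        dec π m r = t := by
  classical
  obtain ⟨⟨P, Q⟩, d, d'⟩ := t
  obtain ⟨hPs, hQs, hne, hPn, hQn, h0, hd1, hd'1, hdp, hd'p, -, hd'B, heq, hle⟩ := ht
  dsimp only at hPs hQs hne hPn hQn h0 hd1 hd'1 hdp hd'p hd'B heq hle
  let j₀ : Fin b := ⟨0, hb⟩
  obtain ⟨he, hPlt, hsum⟩ := h0 j₀ rfl
  set rv : Option (Fin a) → ℕ := fun o => o.elim d fun i => P i - 1 with hrv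
  set cv : Option (Fin b) → ℕ := fun o => o.elim d' fun j => Q j - 1 with hcv
  have hcv0 : ∀ l, cv l ≠ 0 := by
    rintro (_ | j)
    · change d' ≠ 0; omega
    · change Q j - 1 ≠ 0; have := (hQn j).1.1.two_le; omega
  have hprod : (∏ i, rv i) = ∏ l, cv l := by
    rw [Fintype.prod_option, Fintype.prod_option]
    change d * ∏ i, (P i - 1) = d' * ∏ j, (Q j - 1)
    rw [mul_comm, heq, mul_comm]
  obtain ⟨M, hMr, hMc⟩ := exists_matrix Finset.univ rv cv hcv0 hprod
  let Mc : Cel a b → ℕ := fun q => M q.1 q.2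
  have hMall : (∏ q, Mc q) = (∏ j, (Q j - 1)) * d' := by
    rw [Fintype.prod_prod_type]
    simp only [Mc]
    rw [Finset.prod_congr rfl fun i hi => hMr i hi, hprod, Fintype.prod_option]
    exact mul_comm _ _
  have hMdvd : ∀ q, Mc q ∣ rv q.1 ∧ Mc q ∣ cv q.2 := fun q =>
    ⟨hMr q.1 (Finset.mem_univ _) ▸ Finset.dvd_prod_of_mem _ (Finset.mem_univ q.2),
      hMc q.2 ▸ Finset.dvd_prod_of_mem _ (Finset.mem_univ q.1)⟩
  have hMne : ∀ q, Mc q ≠ 0 := fun q hq => hcv0 q.2 (Nat.eq_zero_of_zero_dvd (hq ▸ (hMdvd q).2))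
  set val : Cnd a b → ℕ := fun x => Sum.elim P Q x with hval
  have hvN : ∀ x, Normal (val x) ∧ 1 ≤ cell (val x) := by
    rintro (i | j)
    · exact hPn i
    · exact hQn j
  have hline : ∀ x, (∏ q ∈ univ.filter (mem x), Mc q) = val x - 1 := by
    rintro (i | j)
    · have : univ.filter (mem (Sum.inl i : Cnd a b)) =
          ({some i} : Finset (Option (Fin a))) ×ˢ (univ : Finset (Option (Fin b))) := by
        ext ⟨u, v⟩; simp [mem, eq_comm]
      rw [this, Finset.prod_product, Finset.prod_singleton]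
      exact hMr (some i) (Finset.mem_univ _)
    · have : univ.filter (mem (Sum.inr j : Cnd a b)) =
          (univ : Finset (Option (Fin a))) ×ˢ ({some j} : Finset (Option (Fin b))) := by
        ext ⟨u, v⟩; simp [mem, eq_comm]
      rw [this, Finset.prod_product]
      simp only [Finset.prod_singleton]
      exact hMc (some j)
  -- keys and marked cells
  obtain ⟨key, hkinj, hkval⟩ := exists_key fun q => maxP (Mc q)
  have hbig : ∀ x, ∃ q, mem x q ∧ (∀ q', mem x q' → key q' ≤ key q) ∧
      (maxP (Mc q)).Prime ∧ maxP (Mc q) ∣ Mc q ∧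
      gainL (cell (val x)) ≤ Real.log (maxP (Mc q)) := by
    intro x
    have hne' : (univ.filter (mem x)).Nonempty := by
      cases x with
      | inl i => exact ⟨(some i, none), by simp [mem]⟩
      | inr j => exact ⟨(none, some j), by simp [mem]⟩
    obtain ⟨q, hq, hqmax⟩ := Finset.exists_max_image _ key hne'
    rw [Finset.mem_filter] at hq
    refine ⟨q, hq.2, fun q' h' => hqmax q' (by simp [h']), ?_⟩
    obtain ⟨hN, hc⟩ := hvN x
    have hp2 : 3 ≤ val x := by
      by_contra hlt
      have h2 : val x = 2 := by have := hN.1.two_le; omega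
      rw [h2] at hc
      have : cell 2 = 0 := Nat.ceil_eq_zero.2
        (Real.log_nonpos (by positivity) (by push_cast; linarith [Real.log_two_lt_d9]))
      omega
    obtain ⟨hsp, hsd⟩ := maxP_prime (n := val x - 1) (by omega)
    obtain ⟨q0, hq0, hq0d⟩ := (hsp.prime.dvd_finsetProd_iff Mc).1
      (show maxP (val x - 1) ∣ ∏ q ∈ univ.filter (mem x), Mc q by rw [hline x]; exact hsd)
    have hle0 : maxP (val x - 1) ≤ maxP (Mc q) :=
      (le_maxP (hMne q0) hsp hq0d).trans (hkval _ _ (hqmax q0 hq0))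
    have h2 : 2 ≤ Mc q := by
      by_contra hlt
      have h1 : Mc q = 1 := by have := hMne q; omega
      rw [h1] at hle0
      have : maxP 1 = 0 := by simp [maxP]
      have := hsp.two_le; omega
    exact ⟨(maxP_prime h2).1, (maxP_prime h2).2, (Normal.gainL_le hN hc).trans
      (Real.log_le_log (by exact_mod_cast hsp.pos) (by exact_mod_cast hle0))⟩
  choose top' htmem htmax htpr htdvd htlog using hbig
  set ks : Finset ℕ := univ.image fun x => key (top' x)
  let f := ks.orderIsoOfFin rfl
  have hks : ∀ k : Fin ks.card, ∃ x, key (top' x) = ((f k : ℕ)) := fun k => by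
    obtain ⟨x, -, hx⟩ := Finset.mem_image.1 (f k).2
    exact ⟨x, hx⟩
  choose rep hrep using hks
  let cM : Fin ks.card → Cel a b := fun k => top' (rep k)
  let tp : Cnd a b → Fin ks.card := fun x =>
    f.symm ⟨key (top' x), Finset.mem_image_of_mem _ (Finset.mem_univ x)⟩
  have hctop : ∀ x, cM (tp x) = top' x := fun x => hkinj (by
    change key (top' (rep (tp x))) = _
    rw [hrep]; simp [tp])
  have hcmono : ∀ k k', k ≤ k' ↔ key (cM k) ≤ key (cM k') := fun k k' => by
    change _ ↔ key (top' (rep k)) ≤ key (top' (rep k'))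
    rw [hrep, hrep, Subtype.coe_le_coe, f.le_iff_le]
  have hcinj : Function.Injective cM := fun k k' h =>
    le_antisymm ((hcmono k k').2 (by rw [h])) ((hcmono k' k).2 (by rw [h]))
  have hcell : ∀ x, cell (val x) ≤ e := by
    rintro (i | j)
    · exact he ▸ cell_mono (hPn i).1.1.two_le (hPlt i).le
    · exact he ▸ cell_mono (hQn j).1.1.two_le (hQs.antitone (Fin.mk_le_of_le_val (Nat.zero_le _)))
  let π : Pat a b e ks.card :=
    ⟨cM, tp, fun i => ⟨cell (P i), Nat.lt_succ_of_le (hcell (.inl i))⟩,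
      fun j => ⟨cell (Q j), Nat.lt_succ_of_le (hcell (.inr j))⟩⟩
  have hcc : ∀ x, π.cc x = cell (val x) := by rintro (i | j) <;> rfl
  let r : Fin ks.card → ℕ := fun k => maxP (Mc (cM k))
  have hrp : ∀ k, (r k).Prime := fun k => htpr (rep k)
  let R : Cel a b → ℕ := fun q => ∏ k ∈ univ.filter (fun k => cM k = q), r k
  have hR : ∀ q, R q ∣ Mc q := fun q => by
    by_cases h : ∃ k, cM k = q
    · obtain ⟨k, rfl⟩ := h
      have : univ.filter (fun k' => cM k' = cM k) = {k} := by ext k'; simp [hcinj.eq_iff]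
      simp only [R, this, Finset.prod_singleton]
      exact htdvd (rep k)
    · push Not at h
      simp [R, h]
  let m : Cof a b := fun q => Mc q / R q
  have hmR : ∀ q, m q * R q = Mc q := fun q => Nat.div_mul_cancel (hR q)
  have hmne : ∀ q, m q ≠ 0 := fun q h => hMne q (by rw [← hmR q, h, zero_mul])
  have hregroup : ∀ S : Finset (Cel a b),
      (∏ q ∈ S, Mc q) = (∏ q ∈ S, m q) * ∏ k ∈ univ.filter (fun k => cM k ∈ S), r k := by
    intro S
    rw [← Finset.prod_fiberwise_of_maps_to (g := cM) (t := S)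
        (fun k hk => (Finset.mem_filter.1 hk).2), ← Finset.prod_mul_distrib]
    refine Finset.prod_congr rfl fun q hq => ?_
    rw [← hmR q]
    congr 1
    refine Finset.prod_congr ?_ fun _ _ => rfl
    ext k; simp only [Finset.mem_filter, Finset.mem_univ, true_and]
    exact ⟨fun h => ⟨h ▸ hq, h⟩, fun h => h.2⟩
  have hlineπ : ∀ x, line π m r x = val x - 1 := fun x => by
    rw [← hline x, hregroup]
    unfold line
    congr 2
    ext k; simp [π]
  have hmemtop : ∀ x, mem x (π.c (π.top x)) := fun x => by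
    change mem x (cM (tp x)); rw [hctop]; exact htmem x
  have hcoef : ∀ x, coef π m r x * r (π.top x) = line π m r x := fun x => by
    unfold coef line
    rw [mul_assoc]; congr 1
    conv_rhs => rw [← Finset.prod_erase_mul _ _
      (show π.top x ∈ univ.filter (fun k => mem x (π.c k)) from
        Finset.mem_filter.2 ⟨Finset.mem_univ _, hmemtop x⟩)]
    congr 1
    refine Finset.prod_congr ?_ fun _ _ => rfl
    ext k; simp [and_comm]
  have hMle : ∀ S : Finset (Cel a b), ((∏ q ∈ S, Mc q : ℕ) : ℝ) ≤ y := fun S => by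
    refine le_trans ?_ hle
    rw [← hMall]
    exact_mod_cast Nat.le_of_dvd (Nat.pos_of_ne_zero (Finset.prod_ne_zero_iff.2 fun q _ => hMne q))
      (Finset.prod_dvd_prod_of_subset _ _ _ (Finset.subset_univ S))
  have hMle1 : ∀ q, ((Mc q : ℕ) : ℝ) ≤ y := fun q => by simpa using hMle {q}
  have hLk : ∀ k, Lk π k ≤ Real.log (r k) := fun k => by
    unfold Lk
    have hnon : (univ.filter fun x => π.top x ≤ k).Nonempty := by
      refine ⟨rep k, Finset.mem_filter.2 ⟨Finset.mem_univ _, le_of_eq ?_⟩⟩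
      exact hcinj (hctop (rep k))
    rw [dif_pos hnon]
    refine Finset.sup'_le _ _ fun x hx => ?_
    have hx' : tp x ≤ k := (Finset.mem_filter.1 hx).2
    rw [hcc]
    refine (htlog x).trans (Real.log_le_log (by exact_mod_cast (htpr x).pos) ?_)
    have := hkval _ _ ((hcmono _ _).1 hx')
    rw [hctop] at this
    exact_mod_cast this
  refine ⟨ks.card, ?_, π, ⟨hmemtop, ?_, ?_, fun x => hcc x ▸ (hvN x).2, ?_, ?_, ?_⟩,
    m, r, ?_, ?_, ⟨?_, ?_, ?_⟩, ?_⟩
  · exact Finset.card_image_le.trans (by simp)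
  · intro x k hk
    refine (hcmono k (tp x)).2 ?_
    rw [hctop]; exact htmax x _ hk
  · exact fun k => ⟨rep k, hcinj (hctop (rep k))⟩
  · exact fun i j hij => cell_mono (hQn j).1.1.two_le (hQs.antitone hij)
  · intro j hj
    have : j = j₀ := Fin.ext hj
    change cell (Q j) = e
    rw [this, he]
  · have hX0 := X_le_cell (Q j₀)
    rw [he] at hX0
    have hj : ∀ j : Fin b, (if 0 < j.val then aC j.val * (cell (Q j) : ℝ) else 0) ≤
        (if 0 < j.val then aC j.val * X (Q j) else 0) + Real.log (b + 1) := by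
      intro j
      split_ifs with hj0
      · have h1 := mul_le_mul_of_nonneg_left (cell_le_X_add_one (hQn j).2) (aC_nonneg hj0)
        have h3 : Real.log ((j : ℕ) + 1) ≤ Real.log (b + 1) :=
          Real.log_le_log (by positivity) (by
            have : ((j : ℕ) : ℝ) ≤ b := by exact_mod_cast j.isLt.le
            linarith)
        linarith [aC_le_log j.val]
      · linarith [Real.log_nonneg (show (1 : ℝ) ≤ (b : ℝ) + 1 by
          linarith [(Nat.cast_nonneg b : (0 : ℝ) ≤ b)])]
    have := Finset.sum_le_sum fun j (_ : j ∈ univ) => hj j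
    rw [Finset.sum_add_distrib, Finset.sum_const, Finset.card_univ, Fintype.card_fin,
      nsmul_eq_mul] at this
    change (∑ j : Fin b, if 0 < j.val then aC j.val * (cell (Q j) : ℝ) else 0) + D ≤ _
    linarith
  · intro q
    refine Finset.mem_filter.2 ⟨Finset.mem_range.2 (Nat.lt_succ_of_le (Nat.le_floor ?_)),
      Nat.one_le_iff_ne_zero.2 (hmne q), fun s hs => ?_⟩
    · refine le_trans ?_ (hMle1 q)
      exact_mod_cast Nat.le_of_dvd (Nat.pos_of_ne_zero (hMne q)) ⟨R q, (hmR q).symm⟩
    · obtain ⟨hsp, hsd, -⟩ := Nat.mem_primeFactors.1 hs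
      have hsM : s ∣ Mc q := hsd.trans ⟨R q, (hmR q).symm⟩
      have hpr : ∀ p : ℕ, p.Prime → s ∣ p - 1 → cell s ≤ cell p := fun p hp h =>
        cell_mono hsp.two_le
          ((Nat.le_of_dvd (by have := hp.two_le; omega) h).trans (Nat.sub_le p 1))
      refine le_min ?_ ?_
      · have h := hsM.trans (hMdvd q).1
        rcases hq : q.1 with _ | i <;> rw [hq] at h
        · exact hdp s hsp h
        · exact hpr _ (hPn i).1.1 h
      · have h := hsM.trans (hMdvd q).2
        rcases hq : q.2 with _ | j <;> rw [hq] at h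
        · exact hd'p s hsp h
        · exact hpr _ (hQn j).1.1 h
  · intro k
    refine Nat.le_floor (le_trans ?_ (hMle1 (cM k)))
    exact_mod_cast Nat.le_of_dvd (Nat.pos_of_ne_zero (hMne _)) (htdvd (rep k))
  · intro k
    refine ⟨hrp k, hLk k, fun x hx => ?_, fun x x' hx hx' hxx h => ?_⟩
    · have hc := hcoef x
      rw [hx] at hc
      have hv := (hvN x).1.1
      refine ⟨Nat.one_le_iff_ne_zero.2 fun h0 => ?_, ?_, ?_⟩
      · rw [h0, zero_mul, hlineπ] at hc
        have := hv.two_le; omega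
      · rw [hc, hlineπ, ← hline x]; exact hMle _
      · rw [hc, hlineπ, Nat.sub_add_cancel hv.one_le]; exact hv
    · have h1 := hcoef x
      have h2 := hcoef x'
      rw [hx] at h1; rw [hx', ← h, h1, hlineπ, hlineπ] at h2
      have hv : val x = val x' := by
        have := (hvN x).1.1.two_le; have := (hvN x').1.1.two_le; omega
      rcases x with i | j <;> rcases x' with i' | j'
      · exact hxx (congrArg _ (hPs.injective hv))
      · exact hne i j' hv
      · exact hne i' j hv.symm
      · exact hxx (congrArg _ (hQs.injective hv))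
  · have h := hregroup univ
    simp only [Finset.mem_univ, Finset.filter_true] at h
    rw [← h]; exact hMle univ
  · have hc0 := cw_nonneg π Zb
    have hr0 : ∀ k, r k ≠ 0 := fun k => (hrp k).ne_zero
    have hall : (∏ q, m q) * ∏ k, r k = (∏ j, (Q j - 1)) * d' := by
      rw [← hMall, hregroup univ]; simp
    have hw : wt (zw π Zb) ((∏ j, (Q j - 1)) * d') ≤ ∏ q, wt (zw π Zb) (m q) := by
      rw [← hall, wt_mul _ (Finset.prod_ne_zero_iff.2 fun q _ => hmne q)
        (Finset.prod_ne_zero_iff.2 fun k _ => hr0 k), ← wt_prod _ _ _ fun q _ => hmne q]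
      exact mul_le_of_le_one_right (wt_nonneg (fun t => (zw_pos π Zb t).le) _)
        (wt_le_one (fun t => (zw_pos π Zb t).le) (zw_le_one π Zb) _)
    have hlow : Real.exp (-ind π Zb B) ≤ wt (zw π Zb) ((∏ j, (Q j - 1)) * d') := by
      have hQ0 : ∀ j ∈ (univ : Finset (Fin b)), Q j - 1 ≠ 0 := fun j _ => by
        have := (hQn j).1.1.two_le; omega
      rw [wt_mul _ (Finset.prod_ne_zero_iff.2 hQ0) (show d' ≠ 0 by omega), wt_prod _ _ _ hQ0]
      rw [show zw π Zb = fun t => Real.exp (-cw π Zb t) from rfl]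
      simp only [wt_eq_exp (cw π Zb)]
      rw [← Real.exp_sum, ← Real.exp_add]
      refine Real.exp_le_exp.2 ?_
      rw [Finset.sum_neg_distrib, ← neg_add, neg_le_neg_iff]
      refine add_le_add (Finset.sum_le_sum fun j _ => ?_) ?_
      · refine (Normal.sum_le (hQn j).1 _ (cw_antitone π Zb) hc0).trans ?_
        gcongr
        · exact hc0 0
        · exact T0_mono (hcell (.inr j))
      · refine le_trans (List.sum_le_card_nsmul _ (cw π Zb 0) fun x hx => ?_) ?_
        · obtain ⟨s, -, rfl⟩ := List.mem_map.1 hx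
          exact cw_antitone π Zb (Nat.zero_le _)
        · rw [nsmul_eq_mul, List.length_map]
          refine mul_le_mul_of_nonneg_right ?_ (hc0 0)
          rw [← ArithmeticFunction.cardFactors_apply]
          exact_mod_cast hd'B
    have := hlow.trans hw
    rw [Real.exp_neg, inv_le_iff_one_le_mul₀' (Real.exp_pos _)] at this
    exact this
  · refine Prod.ext (Prod.ext (funext fun i => ?_) (funext fun j => ?_)) (Prod.ext ?_ ?_)
    · change line π m r (.inl i) + 1 = P i
      rw [hlineπ]; exact Nat.sub_add_cancel (hPn i).1.1.one_le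
    · change line π m r (.inr j) + 1 = Q j
      rw [hlineπ]; exact Nat.sub_add_cancel (hQn j).1.1.one_le
    · change _ * _ = d
      have h := hregroup (univ.filter fun q : Cel a b => q.1 = none)
      simp only [Finset.mem_filter, Finset.mem_univ, true_and] at h
      rw [← h, show (univ.filter fun q : Cel a b => q.1 = none) =
        ({none} : Finset (Option (Fin a))) ×ˢ univ by ext ⟨u, v⟩; simp [eq_comm], Finset.prod_product,
        Finset.prod_singleton]
      exact hMr none (Finset.mem_univ _)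
    · change _ * _ = d'
      have h := hregroup (univ.filter fun q : Cel a b => q.2 = none)
      simp only [Finset.mem_filter, Finset.mem_univ, true_and] at h
      rw [← h, show (univ.filter fun q : Cel a b => q.2 = none) =
        univ ×ˢ ({none} : Finset (Option (Fin b))) by ext ⟨u, v⟩; simp [eq_comm], Finset.prod_product]
      simp only [Finset.prod_singleton]
      exact hMc none

end

end Vale.Agent.P031.Coll
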