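import Vale.Agent.P031.Collision.Tools

/-!
# P031 Q2, collisions: one prime variable with sieved forms
-/

namespace Vale.Agent.P031.Coll

open Finset

noncomputable section

/-- Primes `r ≤ R` with `L ≤ log r` such that all `a r + 1` are primes. -/
def formSet (R L : ℝ) (as : Finset ℕ) : Finset ℕ :=
  (Finset.range (⌊R⌋₊ + 1)).filter fun r : ℕ =>
    r.Prime ∧ L ≤ Real.log r ∧ ∀ a ∈ as, (a * r + 1).Prime

lemma one_le_loglog {y : ℝ} (hy : 16 ≤ y) : 1 ≤ Real.log (Real.log y) := by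
  have h2 := Real.log_two_gt_d9
  have h3 : 2.76 ≤ Real.log y := by
    have h16 : Real.log 16 = 4 * Real.log 2 := by
      rw [show (16 : ℝ) = 2 ^ (4 : ℕ) by norm_num, Real.log_pow]; norm_num
    have := Real.log_le_log (by norm_num : (0 : ℝ) < 16) hy
    linarith
  rw [Real.le_log_iff_exp_le (by linarith)]
  linarith [Real.exp_one_lt_d9]

lemma log_sixteen_le : Real.log 16 ≤ 3 := by
  rw [show (16 : ℝ) = 2 ^ (4 : ℕ) by norm_num, Real.log_pow]
  have := Real.log_two_lt_d9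
  push_cast; linarith

/-- Counting form. -/
lemma card_formSet (hS : SieveTarget) : ∃ C : ℕ, ∀ (R Y L : ℝ) (as : Finset ℕ),
    16 ≤ Y → R ≤ Y → 0 < L → as.card ≤ 2 → (∀ a ∈ as, 1 ≤ a ∧ (a : ℝ) ≤ Y) →
    ((formSet R L as).card : ℝ) ≤
      C * R⁺ * Real.log (Real.log Y) ^ C / L ^ (1 + as.card) := by
  obtain ⟨C₀, hC⟩ := hS
  refine ⟨max C₀ 54, fun R Y L as hY hRY hL hcard has => ?_⟩
  set C := max C₀ 54
  set k := as.card
  have hll := one_le_loglog hY
  have hC54 : (54 : ℝ) ≤ C := by exact_mod_cast le_max_right C₀ 54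
  rcases (formSet R L as).eq_empty_or_nonempty with he | ⟨r, hr⟩
  · rw [he]
    have : (0 : ℝ) ≤ R⁺ := posPart_nonneg R
    simp only [Finset.card_empty, Nat.cast_zero]; positivity
  obtain ⟨hrr, hrp, hrL, -⟩ := Finset.mem_filter.1 hr
  have hR2 : (2 : ℝ) ≤ R := by
    have h1 : r ≤ ⌊R⌋₊ := by rw [Finset.mem_range] at hrr; omega
    have h2 := (Nat.le_floor_iff' hrp.ne_zero).1 h1
    have : (2 : ℝ) ≤ r := by exact_mod_cast hrp.two_le
    linarith
  have hrR : (r : ℝ) ≤ R := by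
    refine (Nat.le_floor_iff' hrp.ne_zero).1 ?_
    rw [Finset.mem_range] at hrr; omega
  have hLR : L ≤ Real.log R :=
    hrL.trans (Real.log_le_log (by exact_mod_cast hrp.pos) hrR)
  rw [posPart_eq_self.2 (by linarith : (0 : ℝ) ≤ R)]
  rcases le_or_gt 16 R with h16 | h16
  · have h := hC R Y as h16 hRY hcard has
    have hsub : formSet R L as ⊆ (Finset.range (⌊R⌋₊ + 1)).filter fun r : ℕ =>
        r.Prime ∧ ∀ a ∈ as, (a * r + 1).Prime := by
      intro x hx
      obtain ⟨h1, h2, -, h3⟩ := Finset.mem_filter.1 hx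
      exact Finset.mem_filter.2 ⟨h1, h2, h3⟩
    refine le_trans (Nat.cast_le.2 (Finset.card_le_card hsub)) (h.trans ?_)
    have hlogR : 0 < Real.log R := Real.log_pos (by linarith)
    have hp : Real.log (Real.log Y) ^ C₀ ≤ Real.log (Real.log Y) ^ C :=
      pow_le_pow_right₀ hll (le_max_left _ _)
    have hc : (C₀ : ℝ) ≤ C := by exact_mod_cast le_max_left C₀ 54
    gcongr
  · have hcrd : ((formSet R L as).card : ℝ) ≤ 2 * R := by
      have h1 : (formSet R L as).card ≤ ⌊R⌋₊ + 1 :=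
        (Finset.card_filter_le _ _).trans (by rw [Finset.card_range])
      have h2 := Nat.floor_le (show (0 : ℝ) ≤ R by linarith)
      have : ((formSet R L as).card : ℝ) ≤ (⌊R⌋₊ : ℝ) + 1 := by exact_mod_cast h1
      linarith
    refine hcrd.trans ?_
    rw [le_div_iff₀ (by positivity)]
    have hL3 : L ≤ 3 := hLR.trans ((Real.log_le_log (by linarith) h16.le).trans log_sixteen_le)
    have hLk : L ^ (1 + k) ≤ 27 :=
      (pow_le_pow_left₀ hL.le hL3 _).trans
        ((pow_le_pow_right₀ (by norm_num) (by omega : 1 + k ≤ 3)).trans (by norm_num))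
    have hpow : (1 : ℝ) ≤ Real.log (Real.log Y) ^ C := one_le_pow₀ hll
    calc 2 * R * L ^ (1 + k) ≤ 2 * R * 27 := by gcongr
      _ ≤ (C : ℝ) * R * 1 := by nlinarith
      _ ≤ _ := by gcongr

lemma telescope (f : ℕ → ℝ) (hf : ∀ j, 0 ≤ f j) (a b : ℕ) :
    ∑ j ∈ Finset.Icc a b, (f (j - 1) - f j) ≤ f (a - 1) := by
  rcases Nat.lt_or_ge b a with h | h
  · simp [Finset.Icc_eq_empty_of_lt h, hf]
  · suffices ∑ j ∈ Finset.Icc a b, (f (j - 1) - f j) = f (a - 1) - f b by
      rw [this]; linarith [hf b]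
    induction b, h using Nat.le_induction with
    | base => simp
    | succ n hn ih =>
      rw [Finset.sum_Icc_succ_top (by omega), ih]
      simp

/-- Reciprocal form. -/
lemma sum_formSet (hS : SieveTarget) : ∃ C : ℕ, ∀ (y L : ℝ) (as : Finset ℕ),
    16 ≤ y → 0 < L → 1 ≤ as.card → as.card ≤ 2 → (∀ a ∈ as, 1 ≤ a ∧ (a : ℝ) ≤ y) →
    ∑ r ∈ formSet y L as, ((r : ℝ))⁻¹ ≤
      C * Real.log (Real.log (4 * y)) ^ C / L ^ as.card := by
  obtain ⟨C₁, hC⟩ := card_formSet hS
  refine ⟨16 * C₁, fun y L as hy hL hk1 hk2 has => ?_⟩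
  set k := as.card
  set P := Real.log (Real.log (4 * y)) ^ C₁
  have hll := one_le_loglog (show 16 ≤ 4 * y by linarith)
  have hP : 0 ≤ P := pow_nonneg (by linarith) _
  set l2 := Real.log 2
  have hl2 : (1 : ℝ) / 2 < l2 := by linarith [Real.log_two_gt_d9]
  set J := Nat.log 2 ⌊y⌋₊
  set M : ℕ → ℝ := fun j => max L ((j : ℝ) * l2)
  set G : ℕ → ℝ := fun j => 4 / l2 * (L + (j : ℝ) * l2)⁻¹
  have hblock : ∀ j ∈ Finset.Icc 1 J,
      ∑ r ∈ (formSet y L as).filter (fun r => Nat.log 2 r = j), (r : ℝ)⁻¹ ≤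
        2 * C₁ * P / L ^ (k - 1) * (G (j - 1) - G j) := by
    intro j hj
    obtain ⟨hj1, hjJ⟩ := Finset.mem_Icc.1 hj
    have hy1 : (1 : ℝ) ≤ y := by linarith
    have hyf : ⌊y⌋₊ ≠ 0 := (Nat.floor_pos.2 hy1).ne'
    have hMpos : 0 < M j := lt_of_lt_of_le hL (le_max_left _ _)
    have h2j : (2 : ℝ) ^ j ≤ y := by
      have h1 : 2 ^ j ≤ ⌊y⌋₊ :=
        (Nat.pow_le_pow_right (by norm_num) hjJ).trans (Nat.pow_log_le_self 2 hyf)
      have := Nat.cast_le (α := ℝ).2 h1
      push_cast at this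
      exact this.trans (Nat.floor_le (by linarith))
    have hsub : (formSet y L as).filter (fun r => Nat.log 2 r = j) ⊆
        formSet ((2 : ℝ) ^ (j + 1)) (M j) as := by
      intro r hr
      obtain ⟨hr, hlog⟩ := Finset.mem_filter.1 hr
      obtain ⟨-, hp, hLr, ha⟩ := Finset.mem_filter.1 hr
      refine Finset.mem_filter.2 ⟨Finset.mem_range.2 ?_, hp, max_le hLr ?_, ha⟩
      · have h1 : r < 2 ^ (j + 1) := hlog ▸ Nat.lt_pow_succ_log_self (by norm_num) r
        have h2 : ⌊((2 : ℝ) ^ (j + 1))⌋₊ = 2 ^ (j + 1) := by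
          rw [show ((2 : ℝ) ^ (j + 1)) = ((2 ^ (j + 1) : ℕ) : ℝ) by push_cast; ring,
            Nat.floor_natCast]
        omega
      · rw [← Real.log_pow]
        refine Real.log_le_log (by positivity) ?_
        exact_mod_cast (hlog ▸ Nat.pow_log_le_self 2 hp.ne_zero)
    have hterm : ∀ r ∈ (formSet y L as).filter (fun r => Nat.log 2 r = j),
        (r : ℝ)⁻¹ ≤ ((2 : ℝ) ^ j)⁻¹ := by
      intro r hr
      obtain ⟨hr, hlog⟩ := Finset.mem_filter.1 hr
      refine inv_anti₀ (by positivity) ?_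
      exact_mod_cast (hlog ▸ Nat.pow_log_le_self 2 (Finset.mem_filter.1 hr).2.1.ne_zero)
    have hcard := hC ((2 : ℝ) ^ (j + 1)) (4 * y) (M j) as (by linarith)
      (by rw [pow_succ]; linarith) hMpos hk2
      (fun a ha => ⟨(has a ha).1, by linarith [(has a ha).2]⟩)
    rw [posPart_eq_self.2 (show (0 : ℝ) ≤ 2 ^ (j + 1) by positivity)] at hcard
    have hs : ∑ r ∈ (formSet y L as).filter (fun r => Nat.log 2 r = j), (r : ℝ)⁻¹ ≤
        (((formSet ((2 : ℝ) ^ (j + 1)) (M j) as)).card : ℝ) * ((2 : ℝ) ^ j)⁻¹ :=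
      (Finset.sum_le_card_nsmul _ _ _ hterm).trans (by
        rw [nsmul_eq_mul]; gcongr)
    refine hs.trans ((mul_le_mul_of_nonneg_right hcard (by positivity)).trans ?_)
    have hM2 : (M j ^ 2)⁻¹ ≤ G (j - 1) - G j := by
      have h1 : L + (j : ℝ) * l2 ≤ 2 * M j := by
        linarith [le_max_left L ((j : ℝ) * l2), le_max_right L ((j : ℝ) * l2)]
      have hj' : ((j - 1 : ℕ) : ℝ) = (j : ℝ) - 1 := by
        rw [Nat.cast_sub hj1]; simp
      have hA : 0 < L + ((j : ℝ) - 1) * l2 := by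
        have : (1 : ℝ) ≤ j := by exact_mod_cast hj1
        have : 0 ≤ ((j : ℝ) - 1) * l2 := mul_nonneg (by linarith) (by linarith)
        linarith
      have hB : 0 < L + (j : ℝ) * l2 := by positivity
      have hid : G (j - 1) - G j = 4 / ((L + ((j : ℝ) - 1) * l2) * (L + (j : ℝ) * l2)) := by
        have hA' : L + ((j : ℝ) - 1) * l2 ≠ 0 := hA.ne'
        have hl0 : l2 ≠ 0 := by linarith
        simp only [G, hj']
        rw [← mul_sub, inv_sub_inv hA' hB.ne']
        field_simp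
        ring
      rw [hid, inv_eq_one_div, div_le_div_iff₀ (by positivity) (by positivity)]
      have : (L + ((j : ℝ) - 1) * l2) * (L + (j : ℝ) * l2) ≤ (2 * M j) * (2 * M j) :=
        mul_le_mul (by linarith) h1 hB.le (by positivity)
      linarith
    have hMk : L ^ (k - 1) * M j ^ 2 ≤ M j ^ (1 + k) := by
      rw [show 1 + k = (k - 1) + 2 by omega, pow_add]
      exact mul_le_mul_of_nonneg_right (pow_le_pow_left₀ hL.le (le_max_left _ _) _) (by positivity)
    calc (C₁ : ℝ) * 2 ^ (j + 1) * P / M j ^ (1 + k) * ((2 : ℝ) ^ j)⁻¹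
        = 2 * C₁ * P / M j ^ (1 + k) := by rw [pow_succ]; field_simp
      _ ≤ 2 * C₁ * P / (L ^ (k - 1) * M j ^ 2) := by gcongr
      _ = 2 * C₁ * P / L ^ (k - 1) * (M j ^ 2)⁻¹ := by field_simp
      _ ≤ _ := by gcongr
  have hmaps : Set.MapsTo (fun r => Nat.log 2 r) (↑(formSet y L as) : Set ℕ)
      ↑(Finset.Icc 1 J) := by
    intro r hr
    obtain ⟨h1, hp, -, -⟩ := Finset.mem_filter.1 hr
    rw [Finset.mem_range] at h1
    exact Finset.mem_Icc.2 ⟨Nat.log_pos (by norm_num) hp.two_le, Nat.log_mono_right (by omega)⟩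
  rw [← Finset.sum_fiberwise_of_maps_to hmaps]
  refine (Finset.sum_le_sum hblock).trans ?_
  rw [← Finset.mul_sum]
  have htel := telescope G (fun j => by simp only [G]; positivity) 1 J
  refine (mul_le_mul_of_nonneg_left htel (by positivity)).trans ?_
  have hG0 : G (1 - 1) ≤ 8 / L := by
    simp only [G, Nat.sub_self, Nat.cast_zero, zero_mul, add_zero]
    rw [← div_eq_mul_inv, div_le_div_iff_of_pos_right hL, div_le_iff₀ (by linarith)]
    linarith
  refine (mul_le_mul_of_nonneg_left hG0 (by positivity)).trans ?_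
  have hLk : L ^ (k - 1) * L = L ^ k := by rw [← pow_succ, Nat.sub_add_cancel hk1]
  have hPC : P ≤ Real.log (Real.log (4 * y)) ^ (16 * C₁) := pow_le_pow_right₀ hll (by omega)
  calc 2 * (C₁ : ℝ) * P / L ^ (k - 1) * (8 / L) = 16 * C₁ * P / L ^ k := by
        rw [← hLk]; field_simp; ring
    _ ≤ _ := by push_cast; gcongr

end

end Vale.Agent.P031.Coll
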