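import Vale.Agent.P031.Collision.Encode

/-!
# P031 Q2, collisions: sums over encodings with a fixed pattern
-/

namespace Vale.Agent.P031.Coll

open Finset

noncomputable section

variable {a b e n : ℕ}

lemma one_le_Lk_pre (π : Pat a b e n) {D : ℝ} (hV : π.Valid D) {x : Cnd a b} {k : Fin n}
    (h : π.top x ≤ k) : gainL (π.cc x) ≤ Lk π k ∧ 0 < Lk π k := by
  have hne : (univ.filter fun x => π.top x ≤ k).Nonempty := ⟨x, by simp [h]⟩
  have h1 : gainL (π.cc x) ≤ Lk π k := by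
    rw [Lk, dif_pos hne]; exact Finset.le_sup' (fun x => gainL (π.cc x)) (by simp [h])
  exact ⟨h1, lt_of_lt_of_le (gainL_pos (hV.2.2.2.1 x)) h1⟩

lemma card_top_le_two (π : Pat a b e n) {D : ℝ} (hV : π.Valid D) (k : Fin n) :
    (univ.filter fun x => π.top x = k).card ≤ 2 := by
  classical
  have hsub : (univ.filter fun x => π.top x = k) ⊆
      ((π.c k).1.toFinset.image Sum.inl) ∪ ((π.c k).2.toFinset.image Sum.inr) := by
    intro x hx
    have hx' : π.top x = k := (Finset.mem_filter.1 hx).2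
    have hm := hV.1 x
    rw [hx'] at hm
    cases x with
    | inl i => simp [mem] at hm; simp [hm]
    | inr j => simp [mem] at hm; simp [hm]
  refine (Finset.card_le_card hsub).trans ((Finset.card_union_le _ _).trans ?_)
  have h1 : ∀ {α : Type} (o : Option α), o.toFinset.card ≤ 1 := by
    intro α o; cases o <;> simp
  exact Nat.add_le_add (Finset.card_image_le.trans (h1 _)) (Finset.card_image_le.trans (h1 _))

lemma coef_congr (π : Pat a b e n) {D : ℝ} (hV : π.Valid D) (m : Cof a b) {r r' : Fin n → ℕ}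
    (x : Cnd a b) (h : ∀ j, j < π.top x → r j = r' j) : coef π m r x = coef π m r' x := by
  unfold coef
  congr 1
  refine Finset.prod_congr rfl fun j hj => h j ?_
  obtain ⟨-, h1, h2⟩ := Finset.mem_filter.1 hj
  exact lt_of_le_of_ne (hV.2.1 x j h1) h2

/-- The sum over the admissible values of one marked prime is a sum over a form set. -/
lemma local_sum_le (π : Pat a b e n) {D : ℝ} (hV : π.Valid D) (m : Cof a b) {y : ℝ} (k : Fin n)
    (r : Fin n → ℕ) (R : ℝ) (g : ℕ → ℝ) (Bd : ℕ → ℝ) (hg : ∀ x, 0 ≤ g x)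
    (hBd : ∀ as : Finset ℕ, 1 ≤ as.card → as.card ≤ 2 → (∀ u ∈ as, 1 ≤ u ∧ (u : ℝ) ≤ y) →
      ∑ x ∈ formSet R (Lk π k) as, g x ≤ Bd as.card) (hBd0 : 0 ≤ Bd (univ.filter fun x => π.top x = k).card)
    (S : Finset ℕ) (P : ℕ → Prop) [DecidablePred P]
    (hP : ∀ x ∈ S, P x → x ≤ ⌊R⌋₊ ∧ LocalOK π m y k (Function.update r k x)) :
    ∑ x ∈ S.filter P, g x ≤ Bd (univ.filter fun x => π.top x = k).card := by
  classical
  rcases (S.filter P).eq_empty_or_nonempty with he | ⟨x0, hx0⟩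
  · rw [he]; simpa using hBd0
  obtain ⟨hx0S, hx0P⟩ := Finset.mem_filter.1 hx0
  obtain ⟨-, hpr, -, hco, hinj⟩ := hP x0 hx0S hx0P
  set T := univ.filter fun x => π.top x = k
  have hc : ∀ c ∈ T, ∀ x, coef π m (Function.update r k x) c = coef π m r c := by
    intro c hc x
    refine coef_congr π hV m c fun j hj => ?_
    rw [(Finset.mem_filter.1 hc).2] at hj
    exact Function.update_of_ne hj.ne _ _
  set as := T.image fun c => coef π m r c
  have hcard : as.card = T.card := by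
    refine Finset.card_image_of_injOn fun c hcm c' hcm' h => ?_
    by_contra hne
    refine hinj c c' (Finset.mem_filter.1 hcm).2 (Finset.mem_filter.1 hcm').2 hne ?_
    rw [hc c hcm, hc c' hcm']; exact h
  have h1 : 1 ≤ T.card := by
    obtain ⟨c, hc⟩ := hV.2.2.1 k
    exact Finset.card_pos.2 ⟨c, by simp [T, hc]⟩
  have hle := hBd as (by omega) (hcard ▸ card_top_le_two π hV k) fun u hu => by
    obtain ⟨c, hcm, rfl⟩ := Finset.mem_image.1 hu
    obtain ⟨h1, h2, -⟩ := hco c (Finset.mem_filter.1 hcm).2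
    rw [hc c hcm] at h1 h2
    refine ⟨h1, le_trans ?_ h2⟩
    simp only [Function.update_self] at hpr ⊢
    exact_mod_cast Nat.le_mul_of_pos_right _ hpr.pos
  rw [← hcard]
  refine le_trans (Finset.sum_le_sum_of_subset_of_nonneg ?_ fun x _ _ => hg x) hle
  intro x hx
  obtain ⟨hxS, hxP⟩ := Finset.mem_filter.1 hx
  obtain ⟨hxR, hxp, hxL, hxco, -⟩ := hP x hxS hxP
  simp only [Function.update_self] at hxp hxL
  refine Finset.mem_filter.2 ⟨Finset.mem_range.2 (Nat.lt_succ_of_le hxR), hxp, hxL, fun u hu => ?_⟩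
  obtain ⟨c, hcm, rfl⟩ := Finset.mem_image.1 hu
  have := (hxco c (Finset.mem_filter.1 hcm).2).2.2
  rwa [hc c hcm, Function.update_self] at this

lemma inv_Lk_pow_le (π : Pat a b e n) {D : ℝ} (hV : π.Valid D) (k : Fin n) :
    ((Lk π k) ^ (univ.filter fun x => π.top x = k).card)⁻¹ ≤
      ∏ x ∈ univ.filter (fun x => π.top x = k), (gainL (π.cc x))⁻¹ := by
  obtain ⟨x₀, hx₀⟩ := hV.2.2.1 k
  have hL := (one_le_Lk_pre π hV hx₀.le).2
  rw [← inv_pow, ← Finset.prod_const]
  refine Finset.prod_le_prod (fun x _ => (inv_pos.2 hL).le) fun x hx => ?_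
  exact inv_anti₀ (gainL_pos (hV.2.2.2.1 x))
    (one_le_Lk_pre π hV (Finset.mem_filter.1 hx).2.le).1

open Classical in
/-- The factor of one marked prime; the last one carries the size condition. -/
def phi (π : Pat a b e (n + 1)) (m : Cof a b) (y : ℝ) (k : Fin (n + 1)) (r : Fin (n + 1) → ℕ) :
    ℝ :=
  if k = Fin.last n then
    (if LocalOK π m y k r ∧ (((∏ q, m q) * ∏ j, r j : ℕ) : ℝ) ≤ y then
      ∏ j ∈ univ.erase k, (r j : ℝ) else 0)
  else (if LocalOK π m y k r then ((r k : ℕ) : ℝ)⁻¹ else 0)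

/-- The bound of one factor. -/
def phiBd (π : Pat a b e (n + 1)) (m : Cof a b) (y PP : ℝ) (k : Fin (n + 1)) : ℝ :=
  (if k = Fin.last n then (y / ((∏ q, m q : ℕ) : ℝ)) * (gainL e)⁻¹ else 1) *
    (PP * ∏ x ∈ univ.filter (fun x => π.top x = k), (gainL (π.cc x))⁻¹)

lemma sum_phi_last {C₁ : ℕ} {PP : ℝ}
    (h₁ : ∀ (R Y L : ℝ) (as : Finset ℕ), 16 ≤ Y → R ≤ Y → 0 < L → as.card ≤ 2 →
      (∀ u ∈ as, 1 ≤ u ∧ (u : ℝ) ≤ Y) → ((formSet R L as).card : ℝ) ≤
        C₁ * R⁺ * Real.log (Real.log Y) ^ C₁ / L ^ (1 + as.card))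
    (π : Pat a b e (n + 1)) {D y : ℝ} (hV : π.Valid D) (hb : 1 ≤ b) (hy : 16 ≤ y)
    (hPP : (C₁ : ℝ) * Real.log (Real.log y) ^ C₁ ≤ PP) (m : Cof a b) (hm : ∀ q, 1 ≤ m q)
    (r : Fin (n + 1) → ℕ) :
    ∑ x ∈ Finset.range (⌊y⌋₊ + 1), phi π m y (Fin.last n) (Function.update r (Fin.last n) x) ≤
      phiBd π m y PP (Fin.last n) := by
  classical
  set lastk := Fin.last n
  set T := univ.filter fun x => π.top x = lastk
  have hPP0 : 0 ≤ PP := le_trans (by have := one_le_loglog hy; positivity) hPP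
  obtain ⟨x₀, hx₀⟩ := hV.2.2.1 lastk
  have hL : 0 < Lk π lastk := (one_le_Lk_pre π hV hx₀.le).2
  have hgL : (Lk π lastk)⁻¹ ≤ (gainL e)⁻¹ := by
    let j₀ : Fin b := ⟨0, hb⟩
    have hcc : π.cc (.inr j₀) = e := hV.2.2.2.2.2.1 j₀ rfl
    have h := (one_le_Lk_pre π hV (x := Sum.inr j₀) (Fin.le_last _)).1
    rw [hcc] at h
    exact inv_anti₀ (hcc ▸ gainL_pos (hV.2.2.2.1 _)) h
  have hgpow := inv_Lk_pow_le π hV lastk
  set O : ℝ := ∏ j ∈ univ.erase lastk, (r j : ℝ) with hOdef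
  have hOeq : ∀ x, ∏ j ∈ univ.erase lastk, ((Function.update r lastk x) j : ℝ) = O := fun x =>
    Finset.prod_congr rfl fun j hj => by
      rw [Function.update_of_ne (Finset.ne_of_mem_erase hj)]
  have hphi : ∀ x, phi π m y lastk (Function.update r lastk x) =
      if LocalOK π m y lastk (Function.update r lastk x) ∧
        (((∏ q, m q) * ∏ j, Function.update r lastk x j : ℕ) : ℝ) ≤ y then O else 0 := fun x => by
    unfold phi
    rw [if_pos rfl, hOeq]
  simp only [hphi]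
  rw [← Finset.sum_filter]
  have hMq : (1 : ℝ) ≤ ((∏ q, m q : ℕ) : ℝ) := by
    exact_mod_cast Finset.one_le_prod fun q _ => hm q
  have hge : 0 ≤ (gainL e)⁻¹ := le_trans (inv_pos.2 hL).le hgL
  have hpn : 0 ≤ ∏ x ∈ T, (gainL (π.cc x))⁻¹ :=
    le_trans (inv_pos.2 (pow_pos hL _)).le hgpow
  have hrhs : 0 ≤ phiBd π m y PP lastk := by
    unfold phiBd; rw [if_pos rfl]; positivity
  rcases eq_or_lt_of_le (show (0 : ℝ) ≤ O by positivity) with hO | hO
  · rw [← hO]; simpa using hrhs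
  have hO1 : 1 ≤ O := by
    have h1 : O = ((∏ j ∈ univ.erase lastk, r j : ℕ) : ℝ) := by simp [hOdef, Nat.cast_prod]
    rw [h1] at hO ⊢; exact_mod_cast hO
  set M : ℝ := ((∏ q, m q : ℕ) : ℝ) with hMdef
  set R : ℝ := y / (M * O) with hR
  have hMO : 0 < M * O := mul_pos (by linarith) hO
  have hR0 : 0 ≤ R := div_nonneg (by linarith) hMO.le
  have hRy : R ≤ y := div_le_self (by linarith) (one_le_mul_of_one_le_of_one_le hMq hO1)
  refine le_trans (local_sum_le π hV m (y := y) lastk r R (fun _ => O)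
    (fun i => O * (PP * R * (Lk π lastk)⁻¹ * ((Lk π lastk) ^ i)⁻¹))
    (fun _ => hO.le) ?_ (by positivity) _ _ ?_) ?_
  · intro as _ hc2 has
    rw [Finset.sum_const, nsmul_eq_mul, mul_comm]
    refine mul_le_mul_of_nonneg_left ?_ hO.le
    refine (h₁ R y _ as hy hRy hL hc2 has).trans ?_
    rw [posPart_eq_self.2 hR0, pow_add, pow_one]
    calc (C₁ : ℝ) * R * Real.log (Real.log y) ^ C₁ / (Lk π lastk * Lk π lastk ^ as.card)
        = (C₁ * Real.log (Real.log y) ^ C₁) * R * (Lk π lastk)⁻¹ *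
          ((Lk π lastk) ^ as.card)⁻¹ := by rw [div_eq_mul_inv, mul_inv]; ring
      _ ≤ _ := by gcongr
  · intro x _ hx
    refine ⟨Nat.le_floor ?_, hx.1⟩
    rw [hR, le_div_iff₀ hMO]
    have h := hx.2
    rw [Nat.cast_mul, Nat.cast_prod (Function.update r lastk x),
      ← Finset.mul_prod_erase univ _ (Finset.mem_univ lastk), Function.update_self, hOeq,
      ← hMdef] at h
    linarith
  · unfold phiBd
    rw [if_pos rfl, ← hMdef]
    calc O * (PP * R * (Lk π lastk)⁻¹ * ((Lk π lastk) ^ T.card)⁻¹)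
        = (y / M) * (Lk π lastk)⁻¹ * (PP * ((Lk π lastk) ^ T.card)⁻¹) := by
          rw [hR]; field_simp
      _ ≤ _ := by gcongr

lemma sum_phi_other {C₂ : ℕ} {PP : ℝ}
    (h₂ : ∀ (y L : ℝ) (as : Finset ℕ), 16 ≤ y → 0 < L → 1 ≤ as.card → as.card ≤ 2 →
      (∀ u ∈ as, 1 ≤ u ∧ (u : ℝ) ≤ y) → ∑ r ∈ formSet y L as, ((r : ℝ))⁻¹ ≤
        C₂ * Real.log (Real.log (4 * y)) ^ C₂ / L ^ as.card)
    (π : Pat a b e (n + 1)) {D y : ℝ} (hV : π.Valid D) (hy : 16 ≤ y)
    (hPP : (C₂ : ℝ) * Real.log (Real.log (4 * y)) ^ C₂ ≤ PP) (m : Cof a b)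
    (k : Fin (n + 1)) (hk : k ≠ Fin.last n) (r : Fin (n + 1) → ℕ) :
    ∑ x ∈ Finset.range (⌊y⌋₊ + 1), phi π m y k (Function.update r k x) ≤ phiBd π m y PP k := by
  classical
  have hphi : ∀ x, phi π m y k (Function.update r k x) =
      if LocalOK π m y k (Function.update r k x) then (x : ℝ)⁻¹ else 0 := fun x => by
    unfold phi; rw [if_neg hk, Function.update_self]
  simp only [hphi]
  rw [← Finset.sum_filter]
  obtain ⟨x₀, hx₀⟩ := hV.2.2.1 k
  have hL : 0 < Lk π k := (one_le_Lk_pre π hV hx₀.le).2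
  have hPP0 : 0 ≤ PP :=
    le_trans (by have := one_le_loglog (show 16 ≤ 4 * y by linarith); positivity) hPP
  refine le_trans (local_sum_le π hV m (y := y) k r y (fun x => (x : ℝ)⁻¹)
    (fun i => PP * ((Lk π k) ^ i)⁻¹)
    (fun x => inv_nonneg.2 (Nat.cast_nonneg x)) ?_ (by positivity) _ _ ?_) ?_
  · intro as hc1 hc2 has
    refine (h₂ y _ as hy hL hc1 hc2 has).trans ?_
    rw [div_eq_mul_inv]
    exact mul_le_mul_of_nonneg_right hPP (inv_nonneg.2 (pow_nonneg hL.le _))
  · intro x hx hok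
    exact ⟨Nat.le_of_lt_succ (Finset.mem_range.1 hx), hok⟩
  · unfold phiBd
    rw [if_neg hk, one_mul]
    exact mul_le_mul_of_nonneg_left (inv_Lk_pow_le π hV k) hPP0

open Classical in
/-- Sum over the marked primes. -/
theorem rsum (hS : SieveTarget) : ∃ C : ℕ, 1 ≤ C ∧
    ∀ (a b e n : ℕ) (π : Pat a b e n) (D y : ℝ) (m : Cof a b), π.Valid D → 1 ≤ b → 16 ≤ y →
      (∀ q, 1 ≤ m q) →
      (((Fintype.piFinset fun _ : Fin n => Finset.range (⌊y⌋₊ + 1)).filter fun r =>
          (∀ k, LocalOK π m y k r) ∧ (((∏ q, m q) * ∏ k, r k : ℕ) : ℝ) ≤ y).card : ℝ) ≤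
        (C * Real.log (Real.log (4 * y)) ^ C) ^ n * (y / ((∏ q, m q : ℕ) : ℝ)) *
          (gainL e)⁻¹ * ∏ x, (gainL (π.cc x))⁻¹ := by
  obtain ⟨C₁, h₁⟩ := card_formSet hS
  obtain ⟨C₂, h₂⟩ := sum_formSet hS
  refine ⟨max 1 (max C₁ C₂), le_max_left _ _, fun a b e n π D y m hV hb hy hm => ?_⟩
  set C := max 1 (max C₁ C₂)
  set PP : ℝ := C * Real.log (Real.log (4 * y)) ^ C
  have hll := one_le_loglog hy
  have hll4 := one_le_loglog (show 16 ≤ 4 * y by linarith)
  have hle : Real.log (Real.log y) ≤ Real.log (Real.log (4 * y)) :=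
    Real.log_le_log (Real.log_pos (by linarith)) (Real.log_le_log (by linarith) (by linarith))
  have h1P : (C₁ : ℝ) * Real.log (Real.log y) ^ C₁ ≤ PP :=
    mul_le_mul (by exact_mod_cast le_max_of_le_right (le_max_left _ _))
      ((pow_le_pow_left₀ (by linarith) hle _).trans
        (pow_le_pow_right₀ hll4 (le_max_of_le_right (le_max_left _ _))))
      (by positivity) (by positivity)
  have h2P : (C₂ : ℝ) * Real.log (Real.log (4 * y)) ^ C₂ ≤ PP :=
    mul_le_mul (by exact_mod_cast le_max_of_le_right (le_max_right C₁ C₂))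
      (pow_le_pow_right₀ hll4 (le_max_of_le_right (le_max_right _ _))) (by positivity)
      (by positivity)
  obtain ⟨n', rfl⟩ : ∃ n', n = n' + 1 :=
    ⟨n - 1, by have := (π.top (.inr ⟨0, hb⟩)).isLt; omega⟩
  have hB : ∀ k r, ∑ x ∈ Finset.range (⌊y⌋₊ + 1), phi π m y k (Function.update r k x) ≤
      phiBd π m y PP k := fun k r => by
    by_cases hk : k = Fin.last n'
    · subst hk; exact sum_phi_last h₁ π hV hb hy h1P m hm r
    · exact sum_phi_other h₂ π hV hy h2P m k hk r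
  have hdep : ∀ k r r', (∀ j, j ≤ k → r j = r' j) → phi π m y k r = phi π m y k r' := by
    intro k r r' h
    by_cases hk : k = Fin.last n'
    · rw [funext fun j => h j (hk ▸ Fin.le_last j)]
    have hok : LocalOK π m y k r ↔ LocalOK π m y k r' := by
      have hc : ∀ x, π.top x = k → coef π m r x = coef π m r' x := fun x hx =>
        coef_congr π hV m x fun j hj => h j (hx ▸ hj).le
      unfold LocalOK
      rw [h k le_rfl]
      refine and_congr Iff.rfl (and_congr Iff.rfl (and_congr ?_ ?_))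
      · exact forall_congr' fun x => imp_congr_right fun hx => by rw [hc x hx]
      · exact forall_congr' fun x => forall_congr' fun x' => imp_congr_right fun hx =>
          imp_congr_right fun hx' => imp_congr_right fun _ => by rw [hc x hx, hc x' hx']
    unfold phi
    rw [if_neg hk, if_neg hk, h k le_rfl]
    simp only [hok]
  have hφ0 : ∀ k r, 0 ≤ phi π m y k r := fun k r => by
    unfold phi; split_ifs <;> positivity
  have hmain := nested_sum_le _ (phi π m y) (phiBd π m y PP) hφ0 hdep hB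
  refine le_trans ?_ (hmain.trans (le_of_eq ?_))
  · rw [Finset.card_filter, Nat.cast_sum]
    refine Finset.sum_le_sum fun r _ => ?_
    split_ifs with h
    · have hev : ∏ k, phi π m y k r = 1 := by
        rw [← Finset.mul_prod_erase univ _ (Finset.mem_univ (Fin.last n'))]
        have h1 : phi π m y (Fin.last n') r =
            ∏ j ∈ univ.erase (Fin.last n'), (r j : ℝ) := by
          unfold phi; rw [if_pos rfl, if_pos (And.intro (h.1 _) h.2)]
        have h2 : ∀ k ∈ univ.erase (Fin.last n'), phi π m y k r = ((r k : ℕ) : ℝ)⁻¹ :=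
          fun k hk => by
            unfold phi; rw [if_neg (Finset.ne_of_mem_erase hk), if_pos (h.1 k)]
        rw [h1, Finset.prod_congr rfl h2, ← Finset.prod_mul_distrib]
        exact Finset.prod_eq_one fun j _ => mul_inv_cancel₀
          (by exact_mod_cast (h.1 j).1.ne_zero)
      rw [hev]; simp
    · simpa using Finset.prod_nonneg fun k _ => hφ0 k r
  · unfold phiBd
    rw [Finset.prod_mul_distrib, Finset.prod_mul_distrib, Finset.prod_ite_eq',
      if_pos (Finset.mem_univ _), Finset.prod_const, Finset.card_univ, Fintype.card_fin,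
      Finset.prod_fiberwise (Finset.univ) π.top fun x => (gainL (π.cc x))⁻¹]
    ring

end

end Vale.Agent.P031.Coll
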