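import Vale.Agent.P031.Targets
import Vale.Agent.P031.Basic
import Mathlib.Data.Nat.Factors
import Mathlib.Algebra.BigOperators.Fin

/-!
# P031 Q2, collisions: tools
-/

namespace Vale.Agent.P031.Coll

open Finset

noncomputable section

/-- The largest prime factor. -/
def maxP (n : ℕ) : ℕ := n.primeFactors.sup id

lemma le_maxP {n s : ℕ} (hn : n ≠ 0) (hs : s.Prime) (h : s ∣ n) : s ≤ maxP n :=
  Finset.le_sup (f := id) (Nat.mem_primeFactors.2 ⟨hs, h, hn⟩)

lemma maxP_prime {n : ℕ} (h : 2 ≤ n) : (maxP n).Prime ∧ maxP n ∣ n := by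
  obtain ⟨x, hx, e⟩ := Finset.exists_mem_eq_sup n.primeFactors
    (Nat.nonempty_primeFactors.2 (by omega)) id
  have h' := Nat.mem_primeFactors.1 hx
  rw [maxP, e]; exact ⟨h'.1, h'.2.1⟩

/-- The lower bound for the logarithm of the largest prime of `p - 1`. -/
def gainL (c : ℕ) : ℝ := Real.exp ((c : ℝ) - 1) / (c : ℝ) ^ 2

lemma gainL_pos {c : ℕ} (hc : 1 ≤ c) : 0 < gainL c := by
  have : (0 : ℝ) < c := by exact_mod_cast hc
  unfold gainL; positivity

lemma inv_gainL {c : ℕ} :
    (gainL c)⁻¹ = (c : ℝ) ^ 2 * Real.exp (1 - (c : ℝ)) := by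
  rw [gainL, inv_div, div_eq_mul_inv, ← Real.exp_neg, neg_sub]

lemma Normal.gainL_le {p : ℕ} (h : Normal p) (hc : 1 ≤ cell p) :
    gainL (cell p) ≤ Real.log (maxP (p - 1)) := by
  obtain ⟨r, hr, hdvd, hle⟩ := h.2.2
  have hp2 := h.1.two_le
  have h1 : r ≤ maxP (p - 1) := le_maxP (by omega) hr hdvd
  have hp0 : (0 : ℝ) < p := by exact_mod_cast h.1.pos
  have hl : Real.log ((p : ℝ) ^ (1 / (cell p : ℝ) ^ 2)) ≤ Real.log (maxP (p - 1)) :=
    Real.log_le_log (Real.rpow_pos_of_pos hp0 _) (hle.trans (by exact_mod_cast h1))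
  rw [Real.log_rpow hp0] at hl
  have hX := cell_le_X_add_one hc
  have he : Real.exp ((cell p : ℝ) - 1) ≤ Real.log p := by
    rw [← exp_X hp2]; exact Real.exp_le_exp.2 (by linarith)
  refine le_trans ?_ hl
  unfold gainL
  have hc0 : (0 : ℝ) < cell p := by exact_mod_cast hc
  rw [one_div_mul_eq_div]; gcongr

lemma T0_nonneg (e : ℕ) : 0 ≤ T0 e := Real.rpow_nonneg (Nat.cast_nonneg e) _

lemma T0_mono {a b : ℕ} (h : a ≤ b) : T0 a ≤ T0 b :=
  Real.rpow_le_rpow (Nat.cast_nonneg a) (by exact_mod_cast h) (by norm_num)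

/-- Abel summation over the prime factors of a normal shifted prime. -/
lemma abel_le (L : List ℕ) (c : ℕ → ℝ) (hc : Antitone c) (T : ℝ) :
    ∀ E : ℕ, (∀ t ≤ E, ((L.filter fun s => decide (cell s ≤ t)).length : ℝ) ≤ t + T) →
      ((L.filter fun s => decide (cell s ≤ E)).map fun s => c (cell s)).sum ≤
        (∑ t ∈ Finset.Icc 1 E, c t) + c 0 * T +
          c E * (((L.filter fun s => decide (cell s ≤ E)).length : ℝ) - E - T) := by
  intro E
  induction E with
  | zero =>
    intro _
    have : ∀ M : List ℕ, (∀ s ∈ M, cell s = 0) →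
        (M.map fun s => c (cell s)).sum = M.length * c 0 := by
      intro M hM
      induction M with
      | nil => simp
      | cons a M ih =>
        simp only [List.map_cons, List.sum_cons, List.length_cons, Nat.cast_add, Nat.cast_one]
        rw [ih fun s hs => hM s (List.mem_cons_of_mem _ hs), hM a List.mem_cons_self]; ring
    rw [this _ fun s hs => Nat.le_zero.1 (of_decide_eq_true (List.mem_filter.1 hs).2)]
    simp only [Finset.Icc_eq_empty_of_lt zero_lt_one, Finset.sum_empty, Nat.cast_zero]
    linarith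
  | succ E ih =>
    intro h
    have hsplit : ∀ M : List ℕ,
        ((M.filter fun s => decide (cell s ≤ E + 1)).map fun s => c (cell s)).sum =
          ((M.filter fun s => decide (cell s ≤ E)).map fun s => c (cell s)).sum +
            c (E + 1) * (((M.filter fun s => decide (cell s ≤ E + 1)).length : ℝ) -
              (M.filter fun s => decide (cell s ≤ E)).length) := by
      intro M
      induction M with
      | nil => simp
      | cons a M ihM =>
        rcases lt_trichotomy (cell a) (E + 1) with ha | ha | ha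
        · simp only [List.filter_cons, show cell a ≤ E + 1 by omega, show cell a ≤ E by omega,
            decide_true, if_true, List.map_cons, List.sum_cons, List.length_cons, Nat.cast_add,
            Nat.cast_one, ihM]
          ring
        · have h1 : decide (cell a ≤ E + 1) = true := decide_eq_true (by omega)
          have h2 : decide (cell a ≤ E) = false := decide_eq_false (by omega)
          simp only [List.filter_cons, h1, h2, if_true, if_false, Bool.false_eq_true,
            List.map_cons, List.sum_cons, List.length_cons, Nat.cast_add, Nat.cast_one, ihM]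
          rw [ha]; ring
        · simp only [List.filter_cons, show ¬cell a ≤ E + 1 by omega,
            show ¬cell a ≤ E by omega, decide_false, if_false, Bool.false_eq_true, ihM]
    rw [hsplit, Finset.sum_Icc_succ_top (by omega : 1 ≤ E + 1)]
    have h0 := h E (by omega)
    have hI := ih fun t ht => h t (by omega)
    have hd := hc (show E ≤ E + 1 by omega)
    push_cast
    nlinarith [mul_nonneg (sub_nonneg.2 hd) (by linarith : (0 : ℝ) ≤
      (E : ℝ) + T - ((L.filter fun s => decide (cell s ≤ E)).length : ℝ))]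

lemma Normal.sum_le {p : ℕ} (h : Normal p) (c : ℕ → ℝ) (hc : Antitone c) (hc0 : ∀ t, 0 ≤ c t) :
    ((p - 1).primeFactorsList.map fun s => c (cell s)).sum ≤
      (∑ t ∈ Finset.Icc 1 (cell p), c t) + c 0 * T0 (cell p) := by
  set L := (p - 1).primeFactorsList with hL
  have hfil : L.filter (fun s => decide (cell s ≤ cell p)) = L := by
    refine List.filter_eq_self.2 fun s hs => decide_eq_true ?_
    have hs' := Nat.prime_of_mem_primeFactorsList hs
    have : s ≤ p - 1 := Nat.le_of_mem_primeFactorsList hs
    exact cell_mono hs'.two_le (by omega)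
  have hb : ∀ t ≤ cell p, ((L.filter fun s => decide (cell s ≤ t)).length : ℝ) ≤
      t + T0 (cell p) := by
    intro t ht
    have h1 := (abs_le.1 (h.2.1 t ht)).2
    unfold omegaUpTo at h1
    rw [← hL] at h1; linarith
  have := abel_le L c hc (T0 (cell p)) (cell p) hb
  have h1 := hb _ le_rfl
  rw [hfil] at this h1
  nlinarith [hc0 (cell p)]

lemma wt_eq_exp (c : ℕ → ℝ) (n : ℕ) :
    wt (fun t => Real.exp (-c t)) n =
      Real.exp (-(n.primeFactorsList.map fun s => c (cell s)).sum) := by
  unfold wt
  induction n.primeFactorsList with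
  | nil => simp
  | cons a L ih =>
    simp only [List.map_cons, List.prod_cons, List.sum_cons]
    rw [ih, ← Real.exp_add]; ring_nf

lemma wt_mul (z : ℕ → ℝ) {a b : ℕ} (ha : a ≠ 0) (hb : b ≠ 0) :
    wt z (a * b) = wt z a * wt z b := by
  unfold wt
  rw [((Nat.perm_primeFactorsList_mul ha hb).map _).prod_eq, List.map_append, List.prod_append]

lemma wt_prod (z : ℕ → ℝ) {ι : Type*} (S : Finset ι) (f : ι → ℕ) (hf : ∀ i ∈ S, f i ≠ 0) :
    wt z (∏ i ∈ S, f i) = ∏ i ∈ S, wt z (f i) := by
  classical
  induction S using Finset.induction with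
  | empty => simp [wt]
  | insert a S ha ih =>
    rw [Finset.prod_insert ha, Finset.prod_insert ha,
      wt_mul z (hf a (Finset.mem_insert_self a S))
        (Finset.prod_ne_zero_iff.2 fun i hi => hf i (Finset.mem_insert_of_mem hi)),
      ih fun i hi => hf i (Finset.mem_insert_of_mem hi)]

lemma wt_nonneg {z : ℕ → ℝ} (hz : ∀ t, 0 ≤ z t) (n : ℕ) : 0 ≤ wt z n := by
  refine List.prod_nonneg fun x hx => ?_
  obtain ⟨s, -, rfl⟩ := List.mem_map.1 hx
  exact hz _

/-- Split a divisor of a product over the factors. -/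
lemma exists_split {κ : Type*} [DecidableEq κ] (S : Finset κ) :
    ∀ (r : ℕ) (c : κ → ℕ), r ∣ ∏ l ∈ S, c l →
      ∃ m : κ → ℕ, (∏ l ∈ S, m l) = r ∧ ∀ l ∈ S, m l ∣ c l := by
  induction S using Finset.induction with
  | empty => intro r c h; exact ⟨fun _ => 1, by simpa [eq_comm] using h, by simp⟩
  | insert a S ha ih =>
    intro r c h
    rw [Finset.prod_insert ha] at h
    obtain ⟨r₁, r₂, h1, h2, e⟩ := exists_dvd_and_dvd_of_dvd_mul h
    obtain ⟨m, hm, hd⟩ := ih r₂ c h2
    refine ⟨Function.update m a r₁, ?_, ?_⟩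
    · rw [Finset.prod_insert ha, Function.update_self, e, ← hm]
      congr 1
      exact Finset.prod_congr rfl fun l hl =>
        Function.update_of_ne (fun h : l = a => ha (h ▸ hl)) _ _
    · intro l hl
      rcases Finset.mem_insert.1 hl with rfl | hl
      · simpa using h1
      · rw [Function.update_of_ne (fun h : l = a => ha (h ▸ hl))]; exact hd l hl

/-- The factor matrix. -/
lemma exists_matrix {ι κ : Type*} [Fintype κ] [DecidableEq ι] [DecidableEq κ] (S : Finset ι) :
    ∀ (r : ι → ℕ) (c : κ → ℕ), (∀ l, c l ≠ 0) → (∏ i ∈ S, r i) = ∏ l, c l →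
      ∃ m : ι → κ → ℕ, (∀ i ∈ S, ∏ l, m i l = r i) ∧ ∀ l, ∏ i ∈ S, m i l = c l := by
  induction S using Finset.induction with
  | empty =>
    intro r c _ h
    refine ⟨fun _ _ => 1, by simp, fun l => ?_⟩
    simp only [Finset.prod_empty] at h ⊢
    exact (Nat.dvd_one.1 (h ▸ Finset.dvd_prod_of_mem c (Finset.mem_univ l))).symm
  | insert a S ha ih =>
    intro r c hc h
    rw [Finset.prod_insert ha] at h
    obtain ⟨m₀, hm₀, hd⟩ := exists_split Finset.univ (r a) c (h ▸ dvd_mul_right _ _)
    choose c' hc' using fun l => hd l (Finset.mem_univ l)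
    have hc'0 : ∀ l, c' l ≠ 0 := fun l hl => hc l (by rw [hc' l, hl, mul_zero])
    have hra : r a ≠ 0 := fun hz => by
      rw [hz, zero_mul] at h
      exact Finset.prod_ne_zero_iff.2 (fun l _ => hc l) h.symm
    have he : (∏ i ∈ S, r i) = ∏ l, c' l := by
      apply mul_left_cancel₀ hra
      rw [h, ← hm₀, ← Finset.prod_mul_distrib]
      exact Finset.prod_congr rfl fun l _ => hc' l
    obtain ⟨m, hm, hm'⟩ := ih r c' hc'0 he
    refine ⟨Function.update m a m₀, fun i hi => ?_, fun l => ?_⟩
    · rcases Finset.mem_insert.1 hi with rfl | hi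
      · simpa using hm₀
      · rw [Function.update_of_ne (fun h : i = a => ha (h ▸ hi))]; exact hm i hi
    · rw [Finset.prod_insert ha, Function.update_self, hc' l]
      congr 1
      rw [← hm' l]
      exact Finset.prod_congr rfl fun i hi => by
        rw [Function.update_of_ne (fun h : i = a => ha (h ▸ hi))]

/-- Nested sums: the `k`-th factor depends only on the first `k + 1` coordinates. -/
lemma nested_sum_le : ∀ {n : ℕ} (S : Finset ℕ) (φ : Fin n → (Fin n → ℕ) → ℝ) (B : Fin n → ℝ),
    (∀ k r, 0 ≤ φ k r) → (∀ k r r', (∀ j, j ≤ k → r j = r' j) → φ k r = φ k r') →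
    (∀ k r, ∑ x ∈ S, φ k (Function.update r k x) ≤ B k) →
    ∑ r ∈ Fintype.piFinset (fun _ : Fin n => S), ∏ k, φ k r ≤ ∏ k, B k := by
  intro n
  induction n with
  | zero => intro S φ B _ _ _; simp
  | succ n ih =>
    intro S φ B h0 hdep hB
    have hsplit : ∑ r ∈ Fintype.piFinset (fun _ : Fin (n + 1) => S), ∏ k, φ k r =
        ∑ q ∈ Fintype.piFinset (fun _ : Fin n => S) ×ˢ S,
          ∏ k, φ k (Fin.snoc q.1 q.2) := by
      refine Finset.sum_nbij' (fun r => (Fin.init r, r (Fin.last n)))
        (fun q => Fin.snoc q.1 q.2) ?_ ?_ ?_ ?_ ?_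
      · intro r hr
        simp only [Fintype.mem_piFinset, Finset.mem_product] at hr ⊢
        exact ⟨fun i => hr _, hr _⟩
      · intro q hq
        simp only [Fintype.mem_piFinset, Finset.mem_product] at hq ⊢
        intro i
        induction i using Fin.lastCases with
        | last => simpa using hq.2
        | cast i => simpa using hq.1 i
      · intro r _; exact Fin.snoc_init_self r
      · intro q _; ext <;> simp
      · intro r _; simp
    have hnn : ∀ q : Fin n → ℕ, ∀ k : Fin n, 0 ≤ φ k.castSucc (Fin.snoc q 0) := fun q k => h0 _ _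
    have hpre : ∀ q x (k : Fin n),
        φ k.castSucc (Fin.snoc q x) = φ k.castSucc (Fin.snoc q 0) := by
      intro q x k
      refine hdep _ _ _ fun j hj => ?_
      induction j using Fin.lastCases with
      | last => exact absurd (lt_of_le_of_lt hj (Fin.castSucc_lt_last k)) (lt_irrefl _)
      | cast j => simp
    have hBlast : 0 ≤ B (Fin.last n) :=
      le_trans (Finset.sum_nonneg fun x _ => h0 _ _) (hB (Fin.last n) 0)
    rw [hsplit, Finset.sum_product, Fin.prod_univ_castSucc B]
    calc ∑ q ∈ Fintype.piFinset (fun _ : Fin n => S), ∑ x ∈ S, ∏ k, φ k (Fin.snoc q x)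
        ≤ ∑ q ∈ Fintype.piFinset (fun _ : Fin n => S),
            (∏ k : Fin n, φ k.castSucc (Fin.snoc q 0)) * B (Fin.last n) := by
          refine Finset.sum_le_sum fun q _ => ?_
          simp only [Fin.prod_univ_castSucc, hpre q]
          rw [← Finset.mul_sum]
          refine mul_le_mul_of_nonneg_left ?_ (Finset.prod_nonneg fun k _ => hnn q k)
          calc ∑ x ∈ S, φ (Fin.last n) (Fin.snoc q x)
              = ∑ x ∈ S, φ (Fin.last n) (Function.update (Fin.snoc q 0) (Fin.last n) x) := by
                simp [Fin.update_snoc_last]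
            _ ≤ _ := hB _ _
      _ ≤ (∏ k : Fin n, B k.castSucc) * B (Fin.last n) := by
          rw [← Finset.sum_mul]
          refine mul_le_mul_of_nonneg_right
            (ih S (fun k q => φ k.castSucc (Fin.snoc q 0)) (fun k => B k.castSucc)
              (fun k q => hnn q k) ?_ ?_) hBlast
          · intro k q q' h
            refine hdep _ _ _ fun j hj => ?_
            induction j using Fin.lastCases with
            | last => simp
            | cast j => simp [h j (Fin.castSucc_le_castSucc_iff.1 hj)]
          · intro k q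
            refine le_trans (le_of_eq ?_) (hB k.castSucc (Fin.snoc q 0))
            refine Finset.sum_congr rfl fun x _ => ?_
            rw [Fin.snoc_update]

end

end Vale.Agent.P031.Coll
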